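import Vale.Agent.P275GQ.Fib
import Vale.Agent.P275CW.Gm

/-!
# P275, integration along the fibres modulo exact forms
-/

set_option linter.all false
set_option backward.isDefEq.respectTransparency false

open scoped Manifold ContDiff Topology
open Set
open Vale.Agent.P272.K Vale.Agent.P272.K.Prod Vale.Agent.P281Z Vale.Agent.P281Z.Hg
  Vale.Agent.P275KU Vale.Agent.P275MC Vale.Agent.P275OM Vale.Agent.P275OM.Fr P275CW
open Vale.Agent.P275GQ (FI fst_Ac)

noncomputable section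

namespace Vale.Agent.P275UC

attribute [local instance] prodCS isManifold_prod

variable {n m : ℕ} {X F : Type} [TopologicalSpace X] [ChartedSpace (Cm n) X] [T2Space X]
  [IsManifold 𝓘(ℂ, Cm n) ω X] [SecondCountableTopology X] [TopologicalSpace F]
  [ChartedSpace (Cm m) F] [T2Space F] [IsManifold 𝓘(ℂ, Cm m) ω F] [SecondCountableTopology F]
  [CompactSpace F] {p : ℤ} {c : ℂ} {Φ β : Fr (n + m) (X × F)} {Ω : Fr n X} {ν : Fr m F}

theorem fi_of' (hΦ : sf Φ ∈ Dg (n + m) (X × F) (p + (m + m : ℕ))) (hΩ : sf Ω ∈ Dg n X p)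
    (hν : sf ν ∈ Dg m F (m + m : ℕ))
    (h : ∀ z : Fr n X, sf z ∈ Dg n X ((n + n : ℕ) - p) → Φ * pbH smo_fst z =
      dF (β * pbH smo_fst z) + c • (pbH smo_snd ν * pbH smo_fst Ω * pbH smo_fst z)) :
    FI (c * sgc n m * itc m F (sf ν)) (sf Φ) (sf Ω) univ := fun z hz => by
  rw [← pj_sum z]
  simp only [map_sum, Finset.mul_sum]
  refine Finset.sum_congr rfl fun j _ => ?_
  have h1 := pj_Am (j : ℕ) hz
  generalize pj n X (j : ℕ) z = y at h1
  have h2 : pb smo_fst y ∈ Ac (n + m) (univ : Set (X × F)) := fst_Ac h1.1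
  by_cases e : (j : ℤ) = (n + n : ℕ) - p
  · have h3 := congrArg (fun u => itc (n + m) (X × F) (sf u)) (h (of y) (e ▸ h1.2))
    simp only [map_add, map_smul, mul_assoc, ← map_mul] at h3
    refine h3.trans ?_
    change itc _ _ (dd _ _ (wd _ (pb smo_fst y))) +
      c • itc _ _ (wd (pb smo_snd (sf ν)) (pb smo_fst (wd (sf Ω) y))) = _
    rw [itc_dd (wd_Ac _ h2), zero_add, wd_comm (pb_Dg _ hν) (pb_Dg _ (wd_Dg hΩ h1.2)), map_smul, ← cr_apply,
      itc_cr (wd_Ac _ h1.1) (by rw [Ac_univ]; trivial),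
      Int.negOnePow_even _ (Even.mul_right ⟨(m : ℤ), Nat.cast_add m m⟩ _), Units.val_one, Int.cast_one,
      one_smul, smul_eq_mul]
    ring
  · rw [itc_ne (wd_Am hΩ h1) (by omega), itc_Dg (wd_Am hΦ ⟨h2, pb_Dg _ h1.2⟩) (by omega), mul_zero]

/-- Stokes and Fubini -/
theorem fi_of (hΦ : sf Φ ∈ Dg (n + m) (X × F) (p + (m + m : ℕ))) (hΩ : sf Ω ∈ Dg n X p)
    (hν : sf ν ∈ Dg m F (m + m : ℕ))
    (h : ∀ z : Fr n X, sf z ∈ Dg n X ((n + n : ℕ) - p) → ∀ q : X × F,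
      gq q Φ * gq q (pbH smo_fst z) = (dgG (n + m) q).d (gq q β * gq q (pbH smo_fst z)) +
        c • (gq q (pbH smo_snd ν) * gq q (pbH smo_fst Ω) * gq q (pbH smo_fst z))) :
    FI (c * sgc n m * itc m F (sf ν)) (sf Φ) (sf Ω) univ :=
  fi_of' (β := β) hΦ hΩ hν fun z hz => gq_ext fun q => by
    simp only [map_add, map_smul, map_mul, ← d_gq]
    exact h z hz q

theorem fi_cv {C : Type} [TopologicalSpace C] [ChartedSpace (Cm 1) C] [T2Space C]
    [IsManifold 𝓘(ℂ, Cm 1) ω C] [SecondCountableTopology C] [CompactSpace C] {s : ℂ}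
    {Φ β : Fr (n + 1) (X × C)} {ν : Fr 1 C} (hΦ : Φ ∈ (dgF (n + 1) (X × C)).G 4)
    (hν : sf ν ∈ Dg 1 C 2) (hΩ : Ω ∈ (dgF n X).G 2)
    (h : ∀ z ∈ (dgF n X).G ((n + n : ℕ) - 2), Φ * pbH smo_fst z =
      dF (β * pbH smo_fst z) - s • (pbH smo_snd ν * pbH smo_fst (Ω * z))) :
    FI (-(s * sgc n 1 * itc 1 C (sf ν))) (sf Φ) (sf Ω) univ := by
  rw [← neg_mul, ← neg_mul]
  exact fi_of' (β := β) (p := 2) hΦ hΩ hν fun z hz => by
    rw [h z hz, map_mul (pbH _), mul_assoc, neg_smul, sub_eq_add_neg]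

end Vale.Agent.P275UC
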