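import Vale.Agent.P275NM.Tor
import Vale.Agent.P275CW.Cm1

/-!
# P275, a partition of unity on a punctured curve and the residue
-/

set_option linter.all false
set_option backward.isDefEq.respectTransparency false

open scoped Manifold ContDiff Topology Matrix Real ComplexOrder
open Filter Set Metric MeasureTheory
open Vale.Agent.P272.K Vale.Agent.P299.IX Vale.Agent.P299.IX.Fock Vale.Agent.P281Z.Hg
  Vale.Agent.P281Z.Hg.G1H Vale.Agent.P281Z.Hg.G2H Vale.Agent.P281Z.Hg.Pb1H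
  Vale.Agent.P275MC Vale.Agent.P275KU Vale.Agent.P275OM Vale.Agent.P275OM.Fr P275CW
  Vale.Agent.P275CW
open Vale.Agent.P275MK (c1)
open Vale.Agent.P281Z.Hm (wb)

noncomputable section

namespace Vale.Agent.P275UC

/-- the profile -/
def pf (s t : ℝ) : ℝ := Real.smoothTransition (2 - 2 * t / s)

/-- a primitive -/
def pg (s t : ℝ) : ℝ := pf s t - pf s t * pf s t / 2

variable {s t : ℝ}

theorem pf_cd : ContDiff ℝ ∞ (pf s) :=
  Real.smoothTransition.contDiff.comp (contDiff_const.sub ((contDiff_const.mul contDiff_id).div_const _))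

theorem pg_cd : ContDiff ℝ ∞ (pg s) := pf_cd.sub ((pf_cd.mul pf_cd).div_const _)

theorem pf_one (hs : 0 < s) (h : t ≤ s / 2) : pf s t = 1 :=
  Real.smoothTransition.one_of_one_le (by
    have : 2 * t / s ≤ 1 := (div_le_one hs).2 (by linarith)
    linarith)

theorem pf_zero (hs : 0 < s) (h : s ≤ t) : pf s t = 0 :=
  Real.smoothTransition.zero_of_nonpos (by
    have : 2 ≤ 2 * t / s := (le_div_iff₀ hs).2 (by linarith)
    linarith)

theorem pg_anti (hs : 0 < s) : Antitone (pg s) := fun a b h => by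
  have h1 : pf s b ≤ pf s a := Real.smoothTransition.monotone (by
    have : 2 * a / s ≤ 2 * b / s := by gcongr
    linarith)
  have h2 : pf s a ≤ 1 := Real.smoothTransition.le_one _
  simp only [pg]
  nlinarith

theorem pg_ne (hs : 0 < s) : ∃ t, s / 2 < t ∧ t < s ∧ deriv (pg s) t ≠ 0 := by
  obtain ⟨t, h, e⟩ := exists_deriv_eq_slope (pg s) (half_lt_self hs) pg_cd.continuous.continuousOn
    (pg_cd.differentiable (by simp)).differentiableOn
  refine ⟨t, h.1, h.2, e.trans_ne (div_ne_zero ?_ (sub_pos.2 (half_lt_self hs)).ne')⟩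
  rw [pg, pg, pf_zero hs le_rfl, pf_one hs le_rfl]
  norm_num

theorem loc_exp {X : Type} [TopologicalSpace X] {f g : X → ℂ} {x : X} (hf : ContinuousAt f x)
    (hg : ContinuousAt g x) (h : ∀ᶠ y in 𝓝 x, Complex.exp (f y) = Complex.exp (g y)) :
    f =ᶠ[𝓝 x] fun y => g y + (f x - g x) := by
  have h1 : ContinuousAt (fun y => (f y - (g y + (f x - g x))).im) x :=
    Complex.continuous_im.continuousAt.comp (hf.sub (hg.add continuousAt_const))
  filter_upwards [h, h1.eventually (Ioo_mem_nhds (a := -π) (b := π) (by simp [Real.pi_pos])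
    (by simp [Real.pi_pos]))] with y e k
  rw [← sub_eq_zero, ← Complex.log_exp k.1 k.2.le, Complex.exp_sub, Complex.exp_add,
    Complex.exp_sub, e, h.self_of_nhds, div_self (Complex.exp_ne_zero _), mul_one,
    div_self (Complex.exp_ne_zero _), Complex.log_one]

theorem odd_sum {Ω ι : Type} [Ring Ω] [Algebra ℂ Ω] [Fintype ι] {D : DG Ω} {w : ι → Ω} {v : Ω}
    (hw : ∀ a, w a ∈ D.G 1) (e : v + ∑ a, w a = 0) {n : ι → ℂ} {m : ι → ι → ℂ}
    (h : ∀ a b, w a ≠ 0 → w b ≠ 0 → m a b = n a - n b) :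
    ∑ a, ∑ b, m a b • (w a * w b) = (2 : ℂ) • (v * ∑ a, n a • w a) := by
  have h1 : ∀ a b, m a b • (w a * w b) = n a • w a * w b - w a * n b • w b := fun a b => by
    by_cases ha : w a = 0
    · simp [ha]
    by_cases hb : w b = 0
    · simp [hb]
    rw [h a b ha hb, sub_smul, smul_mul_assoc, mul_smul_comm]
  have h2 := D.cm (sum_mem fun a (_ : a ∈ Finset.univ) => Submodule.smul_mem _ (n a) (hw a))
    (sum_mem fun a (_ : a ∈ Finset.univ) => hw a)
  simp only [h1, Finset.sum_sub_distrib, ← Finset.mul_sum, ← Finset.sum_mul]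
  rw [h2, eq_neg_of_add_eq_zero_left e, mul_one, Int.negOnePow_one, Units.neg_smul, one_smul,
    neg_mul, two_smul]
  abel

theorem odd_sq {Ω : Type} [Ring Ω] [Algebra ℂ Ω] {D : DG Ω} {v g : Ω} (hv : v ∈ D.G 1)
    (hg : g ∈ D.G 0) : v * (g * v) = 0 := by
  have h1 : v * v = 0 := by
    have := D.cm hv hv
    rw [mul_one, Int.negOnePow_one, Units.neg_smul, one_smul, eq_neg_iff_add_eq_zero,
      ← two_smul ℂ] at this
    exact (smul_eq_zero.1 this).resolve_left two_ne_zero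
  rw [D.cm hg hv, zero_mul, Int.negOnePow_zero, one_smul, ← mul_assoc, h1, zero_mul]

theorem wb_rad {G : ℝ → ℝ} (hG : ContDiff ℝ ∞ G) (c w : ℂ) :
    wb 1 (fun u => (G (‖u - c‖ ^ 2) : ℂ)) w = deriv G (‖w - c‖ ^ 2) * (w - c) := by
  have h1 := (Complex.ofRealCLM.hasFDerivAt.comp w
    ((hG.differentiable (by simp) _).hasDerivAt.hasFDerivAt.comp w
      ((hasFDerivAt_id w).sub_const c).norm_sq)).fderiv
  rw [wb, show fderiv ℝ (fun u => (G (‖u - c‖ ^ 2) : ℂ)) w = _ from h1]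
  simp
  apply Complex.ext <;> simp <;> ring

variable {C : Type} [TopologicalSpace C] [ChartedSpace (Cm 1) C] [T2Space C] [CompactSpace C]
  [SecondCountableTopology C] [IsManifold 𝓘(ℂ, Cm 1) ω C]
  {A : P275GC.At C} {k : Fin A.N} {x p : C} {f g : ℂ → ℂ}

theorem sa_e (hA : IsA A) (hx : x ∈ (A.e k).source)
    (h : ∀ᶠ w in 𝓝 (A.e k x), ContDiffAt ℝ ∞ f w) : Sa 1 x fun y => f (A.e k y) :=
  Sa.comp (sa_of (((A.e k).open_source.eventually_mem hx).mono fun y hy => (smAt_iff hA hy).2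
    (contDiffAt_id.congr_of_eventuallyEq ((A.e k).eventually_right_inverse'  hy)))) h

theorem top_e (hA : IsA A) (hx : x ∈ (A.e k).source) {F G : C → ℂ} (hF : Sa 1 x F) (hG : Sa 1 x G)
    (hf : F =ᶠ[𝓝 x] fun y => f (A.e k y)) (hg : G =ᶠ[𝓝 x] fun y => g (A.e k y)) {u : Fr 1 C}
    (h : gq x u = (dgG 1 x).d (gm 1 x F) * (dgG 1 x).d (gm 1 x G)) :
    vl (sf u) (ch A k) (ch A k x) Finset.univ =
      P281Z.Hm.wd 1 f (A.e k x) * wb 1 g (A.e k x) - wb 1 f (A.e k x) * P281Z.Hm.wd 1 g (A.e k x) := by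
  have he := hA.at hx
  obtain ⟨a, ha⟩ := hF
  obtain ⟨b, hb⟩ := hG
  rw [gm_eq a ha, gm_eq b hb, d_gq, d_gq, ← map_mul] at h
  have h2 := P275AR.Nb_ZP (gq_eq.1 h) _ he
  have h3 : ∀ {a : C → ℂ} {f : ℂ → ℂ}, (a =ᶠ[𝓝 x] fun y => f (A.e k y)) →
      (fun z => a ((ch A k).symm z)) =ᶠ[𝓝 (ch A k x)] fun v : Cm 1 => f (v 0) := fun h => by
    filter_upwards [ev_src he h, (ch A k).eventually_right_inverse' he.2] with v h1 h2
    exact h1.trans (congrArg _ (congrFun h2 0))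
  rw [vl_sub, sub_eq_zero] at h2
  rw [h2, sf_mul, wd_vl _ _ he, sf_dF, sf_dF, sf_fnH, sf_fnH]
  erw [dd_fn_vl a.2 he, dd_fn_vl b.2 he]
  rw [P275OM.wg_epsV, P275NM.top2]
  simp only [dr_congr _ (h3 (ha.trans hf)), dr_congr _ (h3 (hb.trans hg))]
  rw [← dr_hl, ← dr_hl, ← dr_ah, ← dr_ah]
  rfl

theorem der_log {c w : ℂ} (hf : ContinuousAt f w) (h : ∀ᶠ u in 𝓝 w, Complex.exp (f u) = u - c) :
    HasDerivAt f (w - c)⁻¹ w := by
  rw [← h.self_of_nhds]
  exact HasDerivAt.of_local_left_inverse hf ((Complex.hasDerivAt_exp _).add_const c)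
    (Complex.exp_ne_zero _) (h.mono fun u e => by simp only [e, sub_add_cancel])

theorem wd_der {c w : ℂ} (h : HasDerivAt f c w) : P281Z.Hm.wd 1 f w = c ∧ wb 1 f w = 0 := by
  rw [P281Z.Hm.wd, wb, h.complexToReal_fderiv.fderiv]
  simp only [smul_eq_mul, mul_one, ContinuousLinearMap.smul_apply, ContinuousLinearMap.one_apply]
  constructor
  · linear_combination (-2⁻¹ * c) * Complex.I_mul_I
  · linear_combination (2⁻¹ * c) * Complex.I_mul_I

theorem ex_rad (hA : IsA A) {D : Set C} (oD : IsOpen D) (hp : p ∈ D) (sD : D ⊆ (A.e k).source) :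
    ∃ (s : ℝ) (ψ : C → ℂ) (K O : Set C), 0 < s ∧ SmC 1 ψ ∧ IsCompact K ∧ K ⊆ D ∧ IsOpen O ∧ p ∈ O ∧
      tsupport ψ ⊆ K ∧ (∀ x ∈ O, ψ x = 1) ∧
      (∀ x ∈ D, ψ =ᶠ[𝓝 x] fun y => pf s (‖A.e k y - A.e k p‖ ^ 2)) ∧
      ∀ t, s / 2 < t → t < s → ∃ x ∈ K \ O, ‖A.e k x - A.e k p‖ ^ 2 = t := by
  set e := A.e k
  obtain ⟨r, hr, h1⟩ := nhds_basis_closedBall.mem_iff.1
    ((e.isOpen_inter_preimage_symm oD).mem_nhds (x := e p)
      ⟨e.map_source (sD hp), by rwa [mem_preimage, e.left_inv (sD hp)]⟩)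
  have hs : 0 < r ^ 2 := by positivity
  have hK : IsCompact (e.symm '' closedBall (e p) r) :=
    (isCompact_closedBall _ _).image_of_continuousOn (e.continuousOn_symm.mono fun w h => (h1 h).1)
  have h2 : ∀ x ∈ e.source, e.source.indicator (fun y => (pf (r ^ 2) (‖e y - e p‖ ^ 2) : ℂ)) =ᶠ[𝓝 x]
      fun y => pf (r ^ 2) (‖e y - e p‖ ^ 2) := fun x hx =>
    (e.open_source.eventually_mem hx).mono fun y hy => indicator_of_mem hy _
  have h3 : tsupport (e.source.indicator fun y => (pf (r ^ 2) (‖e y - e p‖ ^ 2) : ℂ)) ⊆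
      e.symm '' closedBall (e p) r := closure_minimal (fun x hx => by
    rw [support_indicator] at hx
    refine ⟨e x, by_contra fun h => hx.2 ?_, e.left_inv hx.1⟩
    rw [mem_closedBall_iff_norm, not_le] at h
    exact Complex.ofReal_eq_zero.2 (pf_zero hs (by gcongr))) hK.isClosed
  have h4 : e.symm '' closedBall (e p) r ⊆ D := by
    rintro _ ⟨w, h, rfl⟩
    exact (h1 h).2
  refine ⟨r ^ 2, _, _, e.source ∩ e ⁻¹' {w | ‖w - e p‖ ^ 2 < r ^ 2 / 2}, hs, Sa.smC fun x => ?_, hK, h4,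
    e.isOpen_inter_preimage (isOpen_lt (by fun_prop) continuous_const), ⟨sD hp, by simpa using hs⟩,
    h3, fun x hx => ?_, fun x hx => h2 x (sD hx), fun t a b => ?_⟩
  · by_cases hx : x ∈ e.source
    · exact (sa_e hA hx (f := fun w => pf (r ^ 2) (‖w - e p‖ ^ 2)) (.of_forall fun w =>
        (Complex.ofRealCLM.contDiff.comp (pf_cd.comp
          ((contDiff_id.sub contDiff_const).norm_sq ℝ))).contDiffAt)).congr (h2 x hx).symm
    · exact (Sa.const 0).congr (EventuallyEq.symm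
        (notMem_tsupport_iff_eventuallyEq.1 fun h => hx (sD (h4 (h3 h)))))
  · rw [indicator_of_mem hx.1, pf_one hs (le_of_lt hx.2), Complex.ofReal_one]
  · have h5 : ‖e p + √t - e p‖ ^ 2 = t := by
      rw [add_sub_cancel_left, Complex.norm_real, Real.norm_eq_abs, sq_abs,
        Real.sq_sqrt (by linarith)]
    have h6 : e p + √t ∈ closedBall (e p) r := mem_closedBall_iff_norm.2
      (le_of_sq_le_sq (h5.trans_lt b).le hr.le)
    have h7 := e.right_inv (h1 h6).1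
    refine ⟨_, ⟨⟨_, h6, rfl⟩, fun h => ?_⟩, by rw [h7, h5]⟩
    have := h.2
    rw [mem_preimage, mem_setOf_eq, h7, h5] at this
    linarith

/-- the partition of unity and the `2`-form -/
theorem puc_abs (hA : IsA A) {ι : Type} [Fintype ι] {U : ι → Set C} {D : Set C} {θ : ι → C → ℂ}
    (oD : IsOpen D) (hp : p ∈ D) (sD : D ⊆ (A.e k).source) (oU : ∀ a, IsOpen (U a))
    (cov : ∀ x, x ≠ p → ∃ a, x ∈ U a) (lg : ∀ a, ∀ x ∈ U a, x ∈ D →
      Complex.exp (θ a x) = A.e k x - A.e k p ∧ ContinuousAt (θ a) x) :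
    ∃ (ψ0 : C → ℂ) (ψ : ι → C → ℂ) (ν : Fr 1 C), SmC 1 ψ0 ∧ (∀ a, SmC 1 (ψ a)) ∧
      tsupport ψ0 ⊆ D ∧ (∀ a, tsupport (ψ a) ⊆ U a) ∧ (∀ x, ψ0 x + ∑ a, ψ a x = 1) ∧
      sf ν ∈ Dg 1 C 2 ∧ itc 1 C (sf ν) ≠ 0 ∧ (∀ x ∉ tsupport ψ0, gq x ν = 0) ∧
      ∀ x ∈ D, ∀ m : ι → ι → ℂ, (∀ a b, x ∈ U a → x ∈ U b → m a b = θ a x - θ b x) →
        gq x ν = ∑ a, ∑ b, m a b •
          ((dgG 1 x).d (gm 1 x (ψ a)) * (dgG 1 x).d (gm 1 x (ψ b))) := by
  obtain ⟨s, ψ0, K, O, hs, s0, hK, KD, oO, pO, t0, e1, e2, e3⟩ := ex_rad hA oD hp sD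
  have hc : ∀ x ∉ O, ∃ a, x ∈ U a := fun x h => cov x fun e => h (e ▸ pO)
  have := Vale.Agent.P272.K.INT.isManifold_real 1 C
  obtain ⟨σ, hσ⟩ := SmoothPartitionOfUnity.exists_isSubordinate 𝓘(ℝ, Cm 1) oO.isClosed_compl U oU
    fun x h => mem_iUnion.2 (hc x h)
  let ψ : ι → C → ℂ := fun a x => (1 - ψ0 x) * σ a x
  have s1 : ∀ a, SmC 1 (ψ a) := fun a => Sa.smC fun x => ((Sa.const 1).sub (.of s0 x)).mul
    (.of (SmC.of_real (Vale.Agent.P272.K.INT.smoothFn_of_contMDiff (σ a).contMDiff)) x)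
  have t1 : ∀ a, tsupport (ψ a) ⊆ U a := fun a => tsupport_mul_subset_right.trans
    ((tsupport_comp_subset Complex.ofReal_zero (σ a)).trans (hσ a))
  have sum : ∀ x, ψ0 x + ∑ a, ψ a x = 1 := fun x => by
    rw [← Finset.mul_sum]
    by_cases h : x ∈ O
    · rw [e1 x h, sub_self, zero_mul, add_zero]
    · rw [← Complex.ofReal_sum, ← finsum_eq_sum_of_fintype, σ.sum_eq_one h]
      simp
  have l1 : ∀ a, ∀ x ∈ U a ∩ D, ∀ᶠ w in 𝓝 (A.e k x),
      HasDerivAt (A.pl (θ a) k) (w - A.e k p)⁻¹ w := fun a x hx => by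
    have o := (A.e k).isOpen_inter_preimage_symm ((oU a).inter oD)
    filter_upwards [o.mem_nhds (x := A.e k x) ⟨(A.e k).map_source (sD hx.2), by
      rwa [mem_preimage, (A.e k).left_inv (sD hx.2)]⟩] with w hw
    refine der_log ((lg a _ hw.2.1 hw.2.2).2.comp ((A.e k).continuousAt_symm hw.1)) ?_
    filter_upwards [o.mem_nhds hw] with u hu
    exact (lg a _ hu.2.1 hu.2.2).1.trans (by rw [(A.e k).right_inv hu.1])
  have l2 : ∀ a, ∀ x ∈ D, θ a =ᶠ[𝓝 x] fun y => A.pl (θ a) k (A.e k y) := fun a x hx =>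
    ((A.e k).eventually_left_inverse (sD hx)).mono fun y e => congrArg (θ a) e.symm
  have l3 : ∀ a, ∀ x ∈ U a ∩ D, Sa 1 x (θ a) := fun a x hx =>
    (sa_e hA (sD hx.2) ((l1 a x hx).eventually_nhds.mono fun w h =>
      (Complex.analyticAt_iff_eventually_differentiableAt.2 (h.mono fun _ e =>
        e.differentiableAt)).contDiffAt.restrict_scalars ℝ)).congr (l2 a x hx.2).symm
  have hK' := hK.diff oO
  choose κ c1 _ c3 _ _ c6 using fun a => ex_cut (d := 1) ((oU a).inter oD)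
    (hK'.inter_left (isClosed_tsupport (ψ a))) fun x h => ⟨t1 a h.1, KD h.2.1⟩
  have s2 : ∀ a, SmC 1 fun y => κ a y * θ a y := fun a => Sa.smC fun x =>
    (Sa.of (SmC.of_real (c1 a)) x).cut fun hx =>
      l3 a x (c3 a (tsupport_comp_subset Complex.ofReal_zero (κ a) hx))
  have z0 : ∀ x ∉ K \ O, (dgG 1 x).d (gm 1 x ψ0) = 0 := fun x h => by
    by_cases hx : x ∈ O
    · rw [gm_congr (g := fun _ => 1) ((oO.eventually_mem hx).mono e1), d_gm_const]
    · rw [gm_off fun h' => h ⟨t0 h', hx⟩, map_zero]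
  have z1 : ∀ x, gm 1 x ψ0 + ∑ a, gm 1 x (ψ a) = 1 := fun x => by
    rw [← gm_sum _ fun a _ => .of (s1 a) x, ← gm_add (.of s0 x) (.sum _ fun a _ => .of (s1 a) x),
      funext sum, gm_one]
  have z2 : ∀ x, (dgG 1 x).d (gm 1 x ψ0) + ∑ a, (dgG 1 x).d (gm 1 x (ψ a)) = 0 := fun x => by
    rw [← map_sum, ← map_add, z1, DG.d_one]
  have z3 : ∀ x ∈ K \ O, ∀ b, x ∈ U b → ∀ a, gm 1 x (ψ a) = 0 ∨
      gm 1 x (fun y => κ a y * θ a y) = gm 1 x (θ b) + (θ a x - θ b x) • 1 := fun x h b hb a => by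
    by_cases ha : x ∈ tsupport (ψ a)
    · have d := KD h.1
      refine Or.inr ?_
      rw [← gm_const, ← gm_add (l3 b x ⟨hb, d⟩) (.const _)]
      refine gm_congr ?_
      filter_upwards [c6 a x ⟨ha, h⟩, loc_exp (lg a x (t1 a ha) d).2 (lg b x hb d).2 (by
        filter_upwards [(oU a).mem_nhds (t1 a ha), (oU b).mem_nhds hb, oD.mem_nhds d] with y i j l
        rw [(lg a y i l).1, (lg b y j l).1])] with y i j
      rw [i, j, Complex.ofReal_one, one_mul]
    · exact Or.inl (gm_off ha)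
  let ν0 : Fr 1 C := dF (of (fn s0)) * ∑ a, dF (of (fn (s2 a))) * of (fn (s1 a))
  have q0 : ∀ x, gq x ν0 = (dgG 1 x).d (gm 1 x ψ0) *
      ∑ a, (dgG 1 x).d (gm 1 x fun y => κ a y * θ a y) * gm 1 x (ψ a) := fun x => by
    simp only [ν0, map_mul, map_sum, ← d_gq, ← gm_fn]
  have q1 : ∀ x ∈ K \ O, vl (sf ν0) (ch A k) (ch A k x) Finset.univ =
      (-deriv (pg s) (‖A.e k x - A.e k p‖ ^ 2) : ℝ) := fun x h => by
    obtain ⟨b, hb⟩ := hc x h.2
    have d := KD h.1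
    have a1 : Sa 1 x ψ0 := .of s0 x
    have a2 := wd_der (l1 b x ⟨hb, d⟩).self_of_nhds
    have a3 : ∀ u ∈ (dgG 1 x).G 1, gm 1 x ψ0 * u = u * gm 1 x ψ0 := fun u hu => by
      simpa using (dgG 1 x).cm (gm_mem ψ0) hu
    rw [top_e hA (sD d) (f := fun w => pg s (‖w - A.e k p‖ ^ 2))
      (a1.sub ((Sa.const 2⁻¹).mul (a1.mul a1))) (l3 b x ⟨hb, d⟩) ?_ (l2 b x d) ?_, a2.1, a2.2,
      wb_rad pg_cd, mul_zero, zero_sub, mul_inv_cancel_right₀
        ((lg b x hb d).1 ▸ Complex.exp_ne_zero _), Complex.ofReal_neg]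
    · filter_upwards [e2 x d] with y e
      rw [e, pg]
      push_cast
      ring
    · rw [q0, Finset.sum_congr rfl (g := fun a => (dgG 1 x).d (gm 1 x (θ b)) * gm 1 x (ψ a))
        fun a _ => ?_, ← Finset.mul_sum, eq_sub_of_add_eq' (z1 x), gm_sub a1
        ((Sa.const _).mul (a1.mul a1)), gm_smul _ (a1.mul a1), gm_mul a1 a1, map_sub, map_smul,
        (dgG 1 x).lb _ (gm_mem _), Int.negOnePow_zero, one_smul, a3 _ (d_gm_mem _), ← two_smul ℂ,
        smul_smul, inv_mul_cancel₀ two_ne_zero, one_smul, mul_sub, mul_one, ← a3 _ (d_gm_mem _),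
        mul_sub, sub_mul, mul_assoc]
      rcases z3 x h b hb a with e | e
      · rw [e, mul_zero, mul_zero]
      · rw [e, map_add, map_smul, DG.d_one, smul_zero, add_zero]
  have q2 : ∀ x ∉ K \ O, sf ν0 ∈ ZP x := fun x h =>
    P275AR.Nb_ZP (gq_zero.1 (by rw [q0, z0 x h, zero_mul]))
  have q3 : itc 1 C (sf ν0) ≠ 0 := by
    obtain ⟨g, g1, g2, g3, g4, g5⟩ := itc_chart_nonneg (hA.mem k) (u := sf ν0)
      ⟨_, hK', fun x h => ch_src.2 (sD (KD h.1)), q2⟩ fun x hx => by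
        by_cases h : x ∈ K \ O
        · rw [q1 x h]
          exact Complex.zero_le_real.2 (neg_nonneg.2 (pg_anti hs).deriv_nonpos)
        · rw [q2 x h _ hx]
          exact le_rfl
    obtain ⟨t, a, b, c⟩ := pg_ne hs
    obtain ⟨x, h, rfl⟩ := e3 t a b
    rw [g5]
    exact Complex.ofReal_ne_zero.2 (g1.integral_pos_of_hasCompactSupport_nonneg_nonzero (μ := volume)
      g2 g3 (x := ch A k x) fun e => c (neg_eq_zero.1 (Complex.ofReal_eq_zero.1
        ((q1 x h).symm.trans ((g4 _).trans (Complex.ofReal_eq_zero.2 e)))))).ne'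
  have q4 : ∀ x, gq x ((2 : ℂ) • (dF (of (fn s0)) * ∑ a, of (fn (s2 a)) * dF (of (fn (s1 a))))) =
      (2 : ℂ) • ((dgG 1 x).d (gm 1 x ψ0) *
        ∑ a, gm 1 x (fun y => κ a y * θ a y) * (dgG 1 x).d (gm 1 x (ψ a))) := fun x => by
    simp only [map_smul, map_mul, map_sum, ← d_gq, ← gm_fn]
  refine ⟨ψ0, ψ, (2 : ℂ) • (dF (of (fn s0)) * ∑ a, of (fn (s2 a)) * dF (of (fn (s1 a)))), s0, s1,
    t0.trans KD, t1, sum, Submodule.smul_mem _ _ (wd_Dg (dd_fn_Dg s0) (j := 1) (k := 1) ?_), ?_,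
    fun x h => by rw [q4, gm_off h, map_zero, zero_mul, smul_zero], fun x hx m hm => ?_⟩
  · rw [map_sum]
    exact sum_mem fun a _ => fn_wd_Dg (s2 a) (dd_fn_Dg (s1 a))
  · have h1 := (dgF 1 C).lb (a := of (fn s0)) (dF (∑ a, of (fn (s2 a)) * of (fn (s1 a)))) (fn_Dg s0)
    have h2 := fun a => (dgF 1 C).lb (a := of (fn (s2 a))) (of (fn (s1 a))) (fn_Dg (s2 a))
    change dF _ = dF _ * _ + _ • (_ * dF _) at h1
    change ∀ a, dF _ = dF _ * _ + _ • (_ * dF _) at h2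
    rw [show dF (dF _) = 0 from dd_dd _, mul_zero, smul_zero, add_zero, map_sum] at h1
    simp only [h2, Int.negOnePow_zero, one_smul, Finset.sum_add_distrib, mul_add] at h1
    have h3 : ∀ u : Fr 1 C, itc 1 C (sf (dF u)) = 0 := fun u => itc_dd (by rw [Ac_univ]; trivial)
    rw [← sub_eq_of_eq_add' h1, map_smul, map_smul, map_sub, map_sub, h3, zero_sub]
    exact smul_ne_zero two_ne_zero (neg_ne_zero.2 q3)
  · have h1 : ∀ a, (dgG 1 x).d (gm 1 x (ψ a)) ≠ 0 → x ∈ U a := fun a h =>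
      t1 a (by_contra fun e => h (by rw [gm_off e, map_zero]))
    rw [q4, odd_sum (fun a => d_gm_mem _) (z2 x) (n := fun a => θ a x)
      fun a b i j => hm a b (h1 a i) (h1 b j)]
    by_cases h : x ∈ K \ O
    · obtain ⟨b, hb⟩ := hc x h.2
      rw [Finset.sum_congr rfl (g := fun a => (gm 1 x (θ b) - θ b x • 1) *
        (dgG 1 x).d (gm 1 x (ψ a)) + θ a x • (dgG 1 x).d (gm 1 x (ψ a))) fun a _ => ?_,
        Finset.sum_add_distrib, ← Finset.mul_sum, mul_add, eq_neg_of_add_eq_zero_right (z2 x),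
        mul_neg, mul_neg, odd_sq (d_gm_mem _) (sub_mem (gm_mem _)
          (Submodule.smul_mem _ _ (dgG 1 x).one)), neg_zero, zero_add]
      rcases z3 x h b hb a with e | e
      · simp only [e, map_zero, mul_zero, smul_zero, add_zero]
      · rw [e, add_mul, sub_mul, smul_mul_assoc, smul_mul_assoc, one_mul, sub_smul]
        abel
    · rw [z0 x h, zero_mul, zero_mul]

end Vale.Agent.P275UC
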